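import Vale.Agent.P011UF.IF2
import Vale.Agent.P011U.Top

/-!
Forms of the algebra of matrices of size two over a cubic extension.
-/

set_option autoImplicit false
set_option linter.all false

namespace Vale.Agent.P011UF8

open Module Matrix Vale.Agent.P011L Vale.Agent.P011UF Vale.Agent.P011UE

section

variable {F : Type} [Field F]

theorem ch (y : Matrix (Fin 2) (Fin 2) F) : y * y - y.trace • y + y.det • 1 = 0 := by
  ext i j
  fin_cases i <;> fin_cases j <;> simp [mul_apply, trace_fin_two, det_fin_two] <;> ring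

theorem tr_det {y : Matrix (Fin 2) (Fin 2) F} {t n : F} (h : y * y - t • y + n • 1 = 0)
    (h' : ∀ c : F, y ≠ c • 1) : y.trace = t ∧ y.det = n := by
  have e : (y.trace - t) • y = (y.det - n) • 1 := by
    linear_combination (norm := module) h - ch y
  have e1 : y.trace - t = 0 := by
    by_contra c
    exact h' _ (by rw [mul_smul, ← e, inv_smul_smul₀ c] : y = ((y.trace - t)⁻¹ * (y.det - n)) • 1)
  rw [e1, zero_smul] at e
  exact ⟨sub_eq_zero.1 e1, sub_eq_zero.1 (by simpa using (congrFun₂ e 0 0).symm)⟩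

theorem prime {y z : Matrix (Fin 2) (Fin 2) F} (h : ∀ m : Matrix (Fin 2) (Fin 2) F, y * m * z = 0)
    (hz : z ≠ 0) : y = 0 := by
  obtain ⟨i, b, e⟩ : ∃ i b, z i b ≠ 0 := by
    by_contra! c
    exact hz (Matrix.ext c)
  ext a j
  have := congrFun₂ (h (single j i 1)) a b
  refine (mul_eq_zero.1 (?_ : y a j * z i b = 0)).resolve_right e
  fin_cases i <;> fin_cases j <;> simpa [mul_apply, single_apply] using this

end

variable {k l Q K : Type} [Field k] [Field l] [Algebra k l] [Field K] [Algebra l K]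

/-- A form of the algebra of matrices. -/
structure Fm (l K : Type) {Q : Type} [Field l] [Field K] [Algebra l K] [Ring Q] [Algebra l Q] where
  f : Q →ₐ[l] Matrix (Fin 2) (Fin 2) K
  T : Q → l
  N : Q →* l
  rk : finrank l Q = 4
  inj : Function.Injective f
  sp : Submodule.span K (Set.range f) = ⊤
  tr : ∀ x, (f x).trace = algebraMap l K (T x)
  det : ∀ x, (f x).det = algebraMap l K (N x)
  cen : Algebra.IsCentral l Q

namespace Fm

variable [Ring Q] [Algebra l Q] (M : Fm l K (Q := Q))

theorem rt (x : Q) : Rt (M.T x) (M.N x) x := M.inj (by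
  rw [map_add, map_sub, map_mul, map_smul, AlgHom.commutes, map_zero, ← ch (M.f x), M.tr, M.det,
    algebraMap_smul, algebraMap_smul, Algebra.algebraMap_eq_smul_one])

theorem nrd {Ω : Type} [Field Ω] [Algebra l Ω] (g : Q →ₐ[l] Matrix (Fin 2) (Fin 2) Ω)
    (hg : Function.Injective g) (x : Q) : (g x).det = algebraMap l Ω (M.N x) := by
  by_cases h : ∀ c : Ω, g x ≠ c • 1
  · refine (tr_det (t := algebraMap l Ω (M.T x)) ?_ h).2
    have := congrArg g (M.rt x)
    rwa [map_add, map_sub, map_mul, map_smul, AlgHom.commutes, map_zero,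
      Algebra.algebraMap_eq_smul_one, ← algebraMap_smul Ω, ← algebraMap_smul Ω (M.N x)] at this
  push Not at h
  obtain ⟨c, hc⟩ := h
  obtain ⟨r, rfl⟩ := M.cen.out (x := x) (Subalgebra.mem_center_iff.2 fun y => hg (by
    rw [map_mul, map_mul, hc, mul_smul_comm, smul_mul_assoc, mul_one, one_mul]))
  have e : ∀ {Ω : Type} [Field Ω] [Algebra l Ω] (g : Q →ₐ[l] Matrix (Fin 2) (Fin 2) Ω),
      (g (algebraMap l Q r)).det = algebraMap l Ω (r ^ 2) := fun {Ω} _ _ g => by
    rw [g.commutes, Algebra.algebraMap_eq_smul_one, ← algebraMap_smul Ω r, det_smul, det_one,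
      mul_one, Fintype.card_fin, map_pow]
  exact (e g).trans (congrArg _ ((algebraMap l K).injective ((e M.f).symm.trans (M.det _))))

include M in
theorem split (h : ¬∀ x : Q, IsUnit x ∨ x = 0) : Nonempty (Q ≃ₐ[l] Matrix (Fin 2) (Fin 2) l) := by
  haveI : Module.Finite l Q := Module.finite_of_finrank_pos (by rw [M.rk]; decide)
  let ρ : ∀ z : Q, Q →ₐ[l] Module.End l (Ideal.span {z}) := fun z => Algebra.lsmul l l _
  have key : ∀ z : Q, z ≠ 0 → Function.Injective (ρ z) := fun z hz => (injective_iff_map_eq_zero _).2 fun y hy => M.inj ((prime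
      (z := M.f z) (fun m => ?_) fun e => hz (M.inj (e.trans (map_zero _).symm))).trans
      (map_zero _).symm)
  swap
  · have hm : m ∈ Submodule.span K (Set.range M.f) := M.sp ▸ trivial
    induction hm using Submodule.span_induction with
    | mem _ hm =>
      obtain ⟨q, rfl⟩ := hm
      rw [← map_mul, ← map_mul, mul_assoc, ← map_zero M.f]
      exact congrArg _ (congrArg Subtype.val (LinearMap.congr_fun hy
        ⟨q * z, Ideal.mul_mem_left _ _ (Ideal.mem_span_singleton_self z)⟩))
    | zero => simp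
    | add _ _ _ _ a b => rw [mul_add, add_mul, a, b, add_zero]
    | smul c _ _ a => rw [mul_smul_comm, smul_mul_assoc, a, smul_zero]
  have two : ∀ z : Q, z ≠ 0 → 2 ≤ finrank l (Ideal.span {z}) := fun z hz => by
    have := LinearMap.finrank_le_finrank_of_injective (f := (ρ z).toLinearMap) (key z hz)
    rw [M.rk, finrank_linearMap l l] at this
    nlinarith
  push Not at h
  obtain ⟨x, x1, x0⟩ := h
  have r : x * x - M.T x • x + algebraMap l Q (M.N x) = 0 := M.rt x
  have r1 : (algebraMap l Q (M.T x) - x) * x = algebraMap l Q (M.N x) := by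
    rw [sub_mul, ← Algebra.smul_def, ← neg_sub]
    exact neg_eq_of_add_eq_zero_right r
  have n0 : M.N x = 0 := by
    by_contra c
    have r2 : x * (algebraMap l Q (M.T x) - x) = algebraMap l Q (M.N x) := by
      rw [← r1, mul_sub, sub_mul, Algebra.commutes]
    obtain ⟨u, hu⟩ := (IsUnit.mk0 _ c).map (algebraMap l Q)
    exact x1 (isUnit_iff_exists_and_exists.2
      ⟨⟨_, (mul_assoc _ _ _).symm.trans (by rw [r2, ← hu, u.mul_inv])⟩,
        ⟨_, (mul_assoc _ _ _).trans (by rw [r1, ← hu, u.inv_mul])⟩⟩)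
  rw [n0, map_zero] at r1
  have x2 : algebraMap l Q (M.T x) - x ≠ 0 := fun c => by
    by_cases t : M.T x = 0
    · exact x0 (by simpa [t] using c)
    · exact x1 (sub_eq_zero.1 c ▸ (IsUnit.mk0 _ t).map (algebraMap l Q))
  have e := LinearMap.finrank_range_add_finrank_ker (LinearMap.mulRight l x)
  have e1 : finrank l (LinearMap.range (LinearMap.mulRight l x)) = finrank l (Ideal.span {x}) :=
    congrArg (fun S : Submodule l Q => finrank l S) (show _ = (Ideal.span {x}).restrictScalars l from
      Submodule.ext fun _ => Ideal.mem_span_singleton'.symm)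
  have e2 : finrank l (Ideal.span {algebraMap l Q (M.T x) - x}) ≤
      finrank l (LinearMap.ker (LinearMap.mulRight l x)) :=
    Submodule.finrank_mono (s := (Ideal.span {_}).restrictScalars l) fun y hy => by
      obtain ⟨q, rfl⟩ := Ideal.mem_span_singleton'.1 hy
      exact (mul_assoc _ _ _).trans (by rw [r1, mul_zero])
  have e3 : finrank l (Ideal.span {x}) = 2 := by
    have := two _ x2
    have := two _ x0
    have := M.rk
    omega
  exact ⟨(AlgEquiv.ofBijective _ ⟨key x x0, (LinearMap.injective_iff_surjective_of_finrank_eq_finrank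
    (f := (ρ x).toLinearMap) (by rw [finrank_linearMap l l, M.rk, e3])).1 (key x x0)⟩).trans
    (algEquivMatrix (finBasisOfFinrankEq l _ e3))⟩

theorem core (hA : QA) (hS : QS) (hk : Glob k) (h3 : finrank k l = 3) (x : Qˣ)
    (hx : M.N x ∈ Set.range (algebraMap k l)) : x ∈ Subgroup.closure (Sq k l Q) := by
  haveI : Module.Finite l Q := Module.finite_of_finrank_pos (by rw [M.rk]; decide)
  haveI : Module.Finite k l := Module.finite_of_finrank_pos (by rw [h3]; decide)
  haveI := P011U.Glob.inf hk
  by_cases h : ∀ x : Q, IsUnit x ∨ x = 0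
  · haveI : Nontrivial Q := M.f.toRingHom.domain_nontrivial
    letI := DivisionRing.ofIsUnitOrEqZero h
    exact hA l Q M.N ⟨P011U.Glob.fin hk, M.cen, le_rfl, M.rk,
      fun t Ω _ _ g => M.nrd g g.toRingHom.injective t⟩ k hk h3 x hx
  obtain ⟨e⟩ := M.split h
  have := Subgroup.mem_map_of_mem (Units.map (e.symm : _ →* Q))
    (hS k l (Units.map (e : Q →* _) x) (M.nrd e.toAlgHom e.injective x ▸ hx))
  rw [MonoidHom.map_closure] at this
  refine Subgroup.closure_mono ?_ ((congrArg (· ∈ _) (Units.ext (e.symm_apply_apply x))).mp this)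
  rintro _ ⟨y, ⟨h1, t, n, h2, h3, h4⟩, rfl⟩
  refine ⟨fun ⟨c, hc⟩ => h1 ⟨c, (e.commutes c).symm.trans ((congrArg e hc).trans
    (e.apply_symm_apply _))⟩, t, n, h2, h3, ?_⟩
  have := congrArg e.symm h4
  rwa [map_add, map_sub, map_mul, map_smul, AlgEquiv.commutes, map_zero] at this

end Fm

end Vale.Agent.P011UF8
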