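import Vale.Agent.P011UF8.Core

/-!
QM: the fixed triples with equal determinants.
-/

set_option autoImplicit false
set_option linter.all false

namespace Vale.Agent.P011UF8

open Module Matrix Vale.Agent.P011L Vale.Agent.P011UF Vale.Agent.P011LD

variable {k K I : Type} [Field k] [Field K] [Algebra k K]

/-- The triples. -/
abbrev A (I K : Type) : Type := I → Matrix (Fin 2) (Fin 2) K

/-- The action is a homomorphism of rings. -/
def bh (π : Equiv.Perm I) (γ : I → GL (Fin 2) K) (σ : K ≃ₐ[k] K) : A I K →+* A I K where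
  toFun := bb π γ σ
  map_one' := funext fun i => by simp [bb]
  map_mul' x y := funext fun i => by simp [bb, map_mul', Matrix.mul_assoc]
  map_zero' := funext fun i => by simp [bb]
  map_add' x y := funext fun i => by simp [bb, Matrix.map_add, mul_add, add_mul]

theorem bb_sc (π : Equiv.Perm I) (γ : I → GL (Fin 2) K) (σ : K ≃ₐ[k] K) (z : I → K) (x : A I K) :
    bb π γ σ (z • x) = (fun i => σ (z (π.symm i))) • bb π γ σ x :=
  funext fun i => by simp [bb, P011LD.map_smul']

theorem bb_tr (π : Equiv.Perm I) (γ : I → GL (Fin 2) K) (σ : K ≃ₐ[k] K) (x : A I K) (i : I) :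
    (bb π γ σ x i).trace = σ (x (π.symm i)).trace ∧ (bb π γ σ x i).det = σ (x (π.symm i)).det :=
  ⟨by rw [bb, trace_units_conj]; simp [trace_fin_two],
    by rw [bb, det_units_conj]; simp [det_fin_two]⟩

theorem ext1 [Fintype I] [DecidableEq I] {f g : A I K → A I K} (σ : K ≃ₐ[k] K)
    (f1 : ∀ x y, f (x + y) = f x + f y) (g1 : ∀ x y, g (x + y) = g x + g y)
    (f2 : ∀ (c : K) x, f (c • x) = σ c • f x) (g2 : ∀ (c : K) x, g (c • x) = σ c • g x)
    (h : ∀ x : A I K, (∀ i, (x i).det = 1) → f x = g x) (x : A I K) : f x = g x := by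
  let S : Submodule K (A I K) :=
    { carrier := {x | f x = g x}
      add_mem' := fun {x y} (a : f x = g x) (b : f y = g y) => by
        rw [Set.mem_ofPred_eq, f1, g1, a, b]
      zero_mem' := (AddMonoidHom.mk' f f1).map_zero.trans (AddMonoidHom.mk' g g1).map_zero.symm
      smul_mem' := fun c x (a : f x = g x) => by rw [Set.mem_ofPred_eq, f2, g2, a] }
  have k : ∀ i (m : Matrix (Fin 2) (Fin 2) K), (1 + m).det = 1 → Pi.single i m ∈ S := fun i m e => by
    rw [← add_sub_cancel_left 1 (Pi.single i m : A I K)]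
    refine sub_mem (h _ fun j => ?_) (h _ fun _ => det_one)
    by_cases c : j = i
    · simpa [c] using e
    · simp [c]
  rw [← Finset.univ_sum_single x]
  refine S.sum_mem fun i _ => ?_
  have e : x i = (x i 0 1 + x i 0 0 - (x i 1 1 - x i 0 0)) • !![0, 1; 0, 0] +
      (x i 1 0 - x i 0 0 - (x i 1 1 - x i 0 0)) • !![0, 0; 1, 0] + -x i 0 0 • !![-1, 1; -1, -1] +
      (x i 1 1 - x i 0 0) • !![0, 1; 1, 1] := by
    ext a b
    fin_cases a <;> fin_cases b <;> simp
    ring
  rw [e]
  simp only [Pi.single_add, Pi.single_smul]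
  refine add_mem (add_mem (add_mem ?_ ?_) ?_) ?_ <;> refine S.smul_mem _ (k _ _ ?_) <;>
    simp [det_fin_two]

theorem rank_fx [IsGalois k K] {V W : Type} [AddCommGroup V] [Module K V] [FiniteDimensional K V]
    [AddCommGroup W] [Module k W] {a : (K ≃ₐ[k] K) → V → V} (h : Sl ⊤ a) (j : W →+ V)
    (j1 : ∀ c w, j (c • w) = algebraMap k K c • j w) (j2 : Function.Injective j)
    (j3 : Set.range j = Fx ⊤ a) : finrank k W = finrank K V := by
  obtain ⟨b, hb⟩ := h.basis (ι := Fin (finrank K V)) (Fintype.card_fin _)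
  choose w hw using fun i => j3.ge (hb i)
  refine (finrank_eq_card_basis (Basis.mk (v := w) (Fintype.linearIndependent_iff.2 fun c e i => ?_)
    fun x _ => ?_)).trans (Fintype.card_fin _)
  · have := congrArg j e
    simp only [map_sum, j1, hw, map_zero] at this
    exact (algebraMap k K).injective
      ((Fintype.linearIndependent_iff.1 b.linearIndependent _ this i).trans (map_zero _).symm)
  · choose c hc using fun i => fixed_top (k := k) (c := b.repr (j x) i) fun σ => by
      have := j3.le ⟨x, rfl⟩ σ trivial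
      nth_rewrite 1 [← b.sum_repr (j x)] at this
      simp only [h.sum (σ := σ) trivial, h.smul σ trivial, hb _ σ trivial] at this
      exact (congrFun (b.repr_sum_self _) i).symm.trans (congrArg (b.repr · i) this)
    rw [j2 (show j x = j (∑ i, c i • w i) by simp only [map_sum, j1, hw, hc, b.sum_repr])]
    exact Submodule.sum_mem _ fun i _ => Submodule.smul_mem _ _ (Submodule.subset_span ⟨i, rfl⟩)

theorem trans3 [Fintype I] [DecidableEq I] (h : Fintype.card I = 3) {p : Equiv.Perm I}
    (hp : p * p ≠ 1) (i j : I) : j = i ∨ j = p i ∨ j = p (p i) := by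
  have k : ∀ p : Equiv.Perm (Fin 3), p * p ≠ 1 → ∀ i j, j = i ∨ j = p i ∨ j = p (p i) := by decide
  let e := Fintype.equivFinOfCardEq h
  simpa using k (e.permCongr p) (fun c => hp (e.permCongrHom.injective
    ((map_mul _ _ _).trans (c.trans (map_one _).symm)))) (e i) (e j)

variable (π : (K ≃ₐ[k] K) → Equiv.Perm I) (γ : (K ≃ₐ[k] K) → I → GL (Fin 2) K)

/-- The centre and the algebra of the fixed points. -/
def cl : Subalgebra k (I → K) where
  carrier := {z | ∀ (σ : K ≃ₐ[k] K) i, σ (z ((π σ).symm i)) = z i}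
  mul_mem' h h' σ i := by rw [Pi.mul_apply, map_mul, h, h', Pi.mul_apply]
  add_mem' h h' σ i := by rw [Pi.add_apply, map_add, h, h', Pi.add_apply]
  algebraMap_mem' c σ _ := σ.commutes c

def fq : Subalgebra k (A I K) where
  carrier := {x | ∀ σ, bh (π σ) (γ σ) σ x = x}
  mul_mem' h h' σ := by rw [map_mul, h, h']
  add_mem' h h' σ := by rw [map_add, h, h']
  algebraMap_mem' c σ := by
    rw [Algebra.algebraMap_eq_smul_one, ← algebraMap_smul (I → K) c]
    exact (bb_sc _ _ _ _ _).trans (congrArg₂ _ (funext fun _ => σ.commutes c) (map_one (bh _ _ _)))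

theorem sc_mem {z : I → K} (hz : z ∈ cl π) {x : A I K} (hx : x ∈ fq π γ) : z • x ∈ fq π γ :=
  fun σ => (bb_sc _ _ _ _ _).trans (congrArg₂ _ (funext (hz σ)) (hx σ))

/-- The structure of an algebra over the centre. -/
@[reducible] def alg : Algebra (cl π) (fq π γ) := RingHom.toAlgebra'
  { toFun := fun z => ⟨z.1 • 1, sc_mem π γ z.2 (one_mem _)⟩
    map_one' := Subtype.ext (one_smul _ _)
    map_mul' := fun z w => Subtype.ext (funext fun i => by simp [smul_smul, mul_comm])
    map_zero' := Subtype.ext (zero_smul _ _)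
    map_add' := fun z w => Subtype.ext (add_smul _ _ _) }
  fun z x => Subtype.ext (funext fun i => by simp)

variable {π γ} in
theorem gen (hA : QA) (hS : QS) [IsGalois k K] [Fintype I] (hk : Glob k) (h3 : Fintype.card I = 3)
    (S : Sl ⊤ fun σ => bb (π σ) (γ σ) σ) {s : K ≃ₐ[k] K}
    (tr : ∀ Q : I → Prop, (∀ i, Q ((π s).symm i) → Q i) → ∀ i j, Q i → Q j) (y : (fq π γ)ˣ) (n : k)
    (hn : ∀ i, algebraMap k K n = (y.1.1 i).det) : y ∈ Subgroup.closure {z : (fq π γ)ˣ |
      ¬(∀ i, ∃ c : K, z.1.1 i = c • 1) ∧ ∃ t n : k, t ^ 2 ≠ 4 * n ∧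
        ∀ i, z.1.1 i * z.1.1 i - algebraMap k K t • z.1.1 i + algebraMap k K n • 1 = 0} := by
  have o : ∀ σ (z : I → K), bb (π σ) (γ σ) σ (z • 1) = (fun i => σ (z ((π σ).symm i))) • 1 :=
    fun σ z => (bb_sc _ _ _ _ _).trans (congrArg _ (map_one (bh _ _ _)))
  have oi : ∀ z w : I → K, z • (1 : A I K) = w • 1 → z = w := fun z w e => funext fun i => by
    simpa using congrFun₂ (congrFun e i) 0 0
  have S' : Sl ⊤ fun σ (z : I → K) i => σ (z ((π σ).symm i)) :=
    ⟨fun σ _ z w => funext fun i => map_add σ _ _, fun σ _ c z => funext fun i => map_mul σ _ _,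
      fun σ _ τ _ z => oi _ _ ((o _ z).symm.trans ((S.mul σ trivial τ trivial _).trans
        ((congrArg _ (o τ z)).trans (o σ _)))),
      fun z => (S.cont (z • 1)).imp fun _ h σ a b => oi _ _ ((o σ z).symm.trans (h σ a b))⟩
  obtain ⟨i0⟩ : Nonempty I := Fintype.card_pos_iff.1 (by omega)
  haveI : Nontrivial (cl π) :=
    ((Pi.evalRingHom _ i0).comp (cl π).val.toRingHom).domain_nontrivial
  letI : Field (cl π) := Field.ofIsUnitOrEqZero fun z => by
    by_cases c : ∃ i, z.1 i = 0
    · obtain ⟨i, c⟩ := c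
      exact .inr (Subtype.ext (funext fun j => tr (z.1 · = 0)
        (fun i a => by rw [← z.2 s i, a, map_zero]) i j c))
    · exact .inl (.of_mul_eq_one ⟨z.1⁻¹, fun σ i => by rw [Pi.inv_apply, map_inv₀, z.2]; rfl⟩
        (Subtype.ext (funext fun i => mul_inv_cancel₀ fun e => c ⟨i, e⟩)))
  letI := alg π γ
  letI : Algebra (cl π) K := ((Pi.evalRingHom _ i0).comp (cl π).val.toRingHom).toAlgebra
  haveI : IsScalarTower k (cl π) (fq π γ) := .of_algebraMap_eq fun c => Subtype.ext
    ((Algebra.algebraMap_eq_smul_one c).trans (algebraMap_smul (I → K) c _).symm)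
  have r1 : finrank k (cl π) = 3 := (rank_fx S' (cl π).val.toRingHom.toAddMonoidHom
    (fun c w => (algebraMap_smul K c w.1).symm) Subtype.val_injective (Subtype.range_val.trans
      (Set.ext fun z => ⟨fun a σ _ => funext (a σ), fun a σ => congrFun (a σ trivial)⟩))).trans
    (by simpa using h3)
  have fx : Set.range (Subtype.val : fq π γ → _) = Fx ⊤ fun σ => bb (π σ) (γ σ) σ :=
    Subtype.range_val.trans (Set.ext fun z => ⟨fun a σ _ => a σ, fun a σ => a σ trivial⟩)
  have r2 : finrank k (fq π γ) = 3 * 4 := (rank_fx S (fq π γ).val.toRingHom.toAddMonoidHom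
    (fun c w => (algebraMap_smul K c w.1).symm) Subtype.val_injective fx).trans
    (by simp [finrank_pi_fintype, finrank_matrix, h3])
  have sp : ∀ y : A I K, y ∈ Submodule.span K (Set.range (Subtype.val : fq π γ → _)) := fun y => by
    rw [fx, S.span]; trivial
  have sc : ∀ y : fq π γ, (∀ i, ∃ c : K, y.1 i = c • 1) → y ∈ Set.range (algebraMap (cl π) _) :=
    fun y h => by
      choose z hz using h
      have e : y.1 = z • 1 := funext hz
      exact ⟨⟨z, fun σ => congrFun (oi _ _ ((o σ z).symm.trans (e ▸ y.2 σ)))⟩, Subtype.ext e.symm⟩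
  let M : Fm (cl π) K (Q := fq π γ) :=
    { f := { (Pi.evalRingHom _ i0).comp (fq π γ).val.toRingHom with
        commutes' := fun z => (Algebra.algebraMap_eq_smul_one z).symm }
      T := fun y => ⟨fun i => (y.1 i).trace, fun σ i =>
        (bb_tr _ (γ σ) _ _ _).1.symm.trans (congrArg (trace <| · i) (y.2 σ))⟩
      N :=
        { toFun := fun y => ⟨fun i => (y.1 i).det, fun σ i =>
            (bb_tr _ (γ σ) _ _ _).2.symm.trans (congrArg (det <| · i) (y.2 σ))⟩
          map_one' := Subtype.ext (funext fun _ => det_one)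
          map_mul' := fun _ _ => Subtype.ext (funext fun _ => det_mul _ _) }
      rk := by
        have := finrank_mul_finrank k (cl π) (fq π γ)
        rw [r1, r2] at this
        omega
      inj := (injective_iff_map_eq_zero _).2 fun y e => Subtype.ext (funext fun j =>
        tr (y.1 · = 0) (fun i a => (congrFun (y.2 s) i).symm.trans (by simp [bh, bb, a])) i0 j e)
      sp := eq_top_iff.2 fun m _ => by
        have := Submodule.mem_map_of_mem (f := LinearMap.proj (R := K) i0) (sp fun _ => m)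
        rwa [Submodule.map_span, ← Set.range_comp] at this
      tr := fun _ => rfl
      det := fun _ => rfl
      cen := ⟨fun y hy => sc y fun i => by
        have h1 : ∀ w : A I K, w * y.1 = y.1 * w := fun w => by
          induction sp w using Submodule.span_induction with
          | mem _ a =>
            obtain ⟨q, rfl⟩ := a
            exact congrArg Subtype.val (Subalgebra.mem_center_iff.1 hy q)
          | zero => simp
          | add _ _ _ _ a b => rw [add_mul, mul_add, a, b]
          | smul c _ _ a => rw [smul_mul_assoc, mul_smul_comm, a]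
        obtain ⟨u, hu⟩ := mem_range_scalar_of_commute_single
          fun a b _ => congrFun (h1 fun _ => single a b 1) i
        exact ⟨u, by rw [← hu, scalar_apply, smul_one_eq_diagonal]⟩⟩ }
  refine Subgroup.closure_mono ?_ (M.core hA hS hk r1 y ⟨n, Subtype.ext (funext hn)⟩)
  rintro z ⟨h1, t, n, -, h2, h4⟩
  refine ⟨fun c => h1 (sc _ c), t, n, h2, fun i => ?_⟩
  rw [Rt, Algebra.smul_def] at h4
  exact (congrArg (_ - · + _) (smul_one_mul _ _).symm).trans (congrFun (congrArg Subtype.val h4) i)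

theorem qm (hA : QA) (hS : QS) : QM := by
  intro k K _ _ _ _ hk I _ _ h3 π γ ⟨s, hs⟩ hm hc P hP x x1 x2
  haveI : IsGalois k K := IsSepClosure.isGalois
  have sm : ∀ σ (c : K) (x : A I K), bb (π σ) (γ σ) σ (c • x) = σ c • bb (π σ) (γ σ) σ x :=
    fun σ c x => bb_sc _ _ _ (fun _ => c) x
  have ad : ∀ σ (x y : A I K), bb (π σ) (γ σ) σ (x + y) = _ := fun σ => map_add (bh _ _ σ)
  have S : Sl ⊤ fun σ => bb (π σ) (γ σ) σ :=
    ⟨fun σ _ => ad σ, fun σ _ => sm σ, fun σ _ τ _ => ext1 (σ * τ) (ad _)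
      (fun x y => (congrArg _ (ad τ x y)).trans (ad σ _ _)) (sm _)
      (fun c x => (congrArg _ (sm τ c x)).trans (sm σ _ _)) (hm σ τ),
    fun x => (hc.and (Op.all fun i => Op.mat ⊤ (x i))).imp fun σ _ e =>
      (ext1 σ (ad σ) (fun x y => funext fun i => Matrix.map_add _ (map_add σ) _ _) (sm σ)
        (fun c x => funext fun i => P011LD.map_smul' σ c _) e.1 x).trans (funext e.2)⟩
  have tr : ∀ Q : I → Prop, (∀ i, Q ((π s).symm i) → Q i) → ∀ i j, Q i → Q j := fun Q h i j a => by
    have : ∀ i, Q i → Q (π s i) := fun i a => h _ (by simpa using a)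
    rcases trans3 h3 hs i j with rfl | rfl | rfl
    exacts [a, this _ a, this _ (this _ a)]
  let u : (fq π γ)ˣ →* (I → GL (Fin 2) K) := MonoidHom.pi fun i =>
    Units.map (((Pi.evalRingHom _ i).comp (fq π γ).val.toRingHom) : fq π γ →* _)
  have x3 : (fun i => (x i).1) * (fun i => (x i)⁻¹.1 : A I K) = 1 := funext fun i => (x i).mul_inv
  have x4 : (fun i => (x i)⁻¹.1) * (fun i => (x i).1 : A I K) = 1 := funext fun i => (x i).inv_mul
  let y : (fq π γ)ˣ := ⟨⟨_, x1⟩, ⟨fun i => (x i)⁻¹.1, fun σ => by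
    have := congrArg (bh (π σ) (γ σ) σ) x3
    rw [map_mul, map_one, show bh (π σ) (γ σ) σ _ = _ from x1 σ] at this
    exact (left_inv_eq_right_inv x4 this).symm⟩, Subtype.ext x3, Subtype.ext x4⟩
  obtain ⟨i0⟩ : Nonempty I := Fintype.card_pos_iff.1 (by omega)
  obtain ⟨n, hn⟩ := fixed_top (k := k) (c := (x i0).1.det) fun σ => (congrArg σ (x2 _ _)).trans
    ((bb_tr _ (γ σ) σ (fun i => (x i).1) i0).2.symm.trans (congrArg (det <| · i0) (x1 σ)))
  have e : u y = x := funext fun i => Units.ext rfl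
  rw [← e]
  refine (Subgroup.closure_le (P.comap u)).2 ?_ (gen hA hS hk h3 S tr y n fun i => hn.trans (x2 _ _))
  rintro z ⟨h1, t, n, h2, h4⟩
  refine hP _ z.1.2 ⟨t, n, h2, fun i => tr_det (h4 i) fun c e => h1 fun j => ?_⟩
  refine tr (fun i => ∃ c : K, z.1.1 i = c • 1) (fun i ⟨c, a⟩ => ⟨s c, ?_⟩) i j ⟨c, e⟩
  exact (congrFun (z.1.2 s) i).symm.trans (by simp [bh, bb, a, P011LD.map_smul'])

end Vale.Agent.P011UF8
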